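import Vale.Agent.P181.H777.Outer
import Vale.Agent.P181.H536.HW

set_option autoImplicit false

open scoped TensorProduct

namespace Vale.Agent.P181.H777

open Vale.Agent.P181 Vale.Agent.P181.H280 Vale.Agent.P181.H54

variable {m : ℕ}

/-- The weight of size `N` with rows `α` below the first row. -/
def pad (N : ℕ) (α : Fin m → ℕ) : Fin (m + 1) → ℕ := Fin.cons (N - ∑ i, α i) α

/-- The multiplicity in `Sym^a(Sym^b V)` of the weight with tail `α`. -/
noncomputable def F (a b : ℕ) (α : Fin m → ℕ) : ℕ := plethMult a b (m + 1) (pad (a * b) α)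

lemma pad_zero (N : ℕ) (α : Fin m → ℕ) : pad N α 0 = N - ∑ i, α i := rfl

lemma pad_succ (N : ℕ) (α : Fin m → ℕ) (i : Fin m) : pad N α i.succ = α i := rfl

lemma pad_add (N k : ℕ) (α : Fin m → ℕ) (h : ∑ i, α i ≤ N) :
    pad (N + k) α = addFirst (pad N α) k := by
  funext i
  refine Fin.cases ?_ (fun i => ?_) i
  · rw [addFirst, if_pos rfl, pad_zero, pad_zero]
    omega
  · rw [addFirst, if_neg (Fin.succ_ne_zero i), pad_succ, pad_succ, add_zero]

lemma sum_pad (N : ℕ) (α : Fin m → ℕ) : ∑ i, pad N α i = (N - ∑ i, α i) + ∑ i, α i := by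
  rw [Fin.sum_univ_succ, pad_zero]
  rfl

lemma F_eq_zero {a b : ℕ} {α : Fin m → ℕ} (h : a * b < ∑ i, α i) : F a b α = 0 := by
  apply plethMult_eq_zero_of_sum
  rw [sum_pad]
  omega

/-- Inner monotonicity, one step. -/
lemma F_inner_succ (a b : ℕ) (α : Fin m → ℕ) : F a b α ≤ F a (b + 1) α := by
  by_cases h : ∑ i, α i ≤ a * b
  · have h1 := plethMult_inner_mono a b (pad (a * b) α)
    rw [← pad_add _ _ _ h, ← Nat.mul_succ] at h1
    exact h1
  · rw [F_eq_zero (not_le.1 h)]
    exact Nat.zero_le _

/-- Outer monotonicity, one step. -/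
lemma F_outer_succ (a b : ℕ) (α : Fin m → ℕ) : F a b α ≤ F (a + 1) b α := by
  by_cases h : ∑ i, α i ≤ a * b
  · have h1 := plethMult_mono b a (pad (a * b) α)
    rw [← pad_add _ _ _ h, ← Nat.succ_mul] at h1
    exact h1
  · rw [F_eq_zero (not_le.1 h)]
    exact Nat.zero_le _

theorem F_inner_mono (a : ℕ) {b b' : ℕ} (hb : b ≤ b') (α : Fin m → ℕ) : F a b α ≤ F a b' α := by
  induction b', hb using Nat.le_induction with
  | base => exact le_rfl
  | succ k _ ih => exact ih.trans (F_inner_succ a k α)

theorem F_outer_mono {a a' : ℕ} (ha : a ≤ a') (b : ℕ) (α : Fin m → ℕ) : F a b α ≤ F a' b α := by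
  induction a', ha using Nat.le_induction with
  | base => exact le_rfl
  | succ k _ ih => exact ih.trans (F_outer_succ k b α)

/-- Inner stability, one step. -/
lemma F_inner_stab_succ (a b : ℕ) (α : Fin m → ℕ) (hα : ∀ i, α i ≤ b) :
    F a (b + 1) α ≤ F a b α := by
  have hne : ∀ i : Fin (m + 1), i ≠ 0 → ∀ N : ℕ, pad N α i ≤ b := by
    intro i hi N
    obtain ⟨j, rfl⟩ := Fin.exists_succ_eq.2 hi
    exact hα j
  by_cases h : ∑ i, α i ≤ a * b
  · have h1 := plethMult_stab a b (pad (a * b) α) (fun i hi => hne i hi _)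
    rw [← pad_add _ _ _ h, ← Nat.mul_succ] at h1
    exact h1
  · by_cases h' : ∑ i, α i ≤ a * (b + 1)
    · have h1 := plethMult_eq_zero a b (pad (a * (b + 1)) α) (fun i hi => hne i hi _) (by
        rw [pad_zero, Nat.mul_succ]
        rw [Nat.mul_succ] at h'
        omega)
      exact h1.le.trans (Nat.zero_le _)
    · rw [F_eq_zero (not_le.1 h')]
      exact Nat.zero_le _

/-- Outer stability, one step. -/
lemma F_outer_stab_succ (a b : ℕ) (α : Fin m → ℕ) (hα : ∑ i, α i ≤ a) :
    F (a + 1) b α ≤ F a b α := by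
  have hs : ∀ N : ℕ, ∑ i : Fin m, pad N α i.succ ≤ a := fun N => hα
  have h1 := plethMult_outer_stab a b (pad (a * b) α) (hs _)
  rcases Nat.eq_zero_or_pos b with hb | hb
  · subst hb
    rw [addFirst_zero] at h1
    exact h1
  · have h : ∑ i, α i ≤ a * b := hα.trans (Nat.le_mul_of_pos_right a hb)
    rw [← pad_add _ _ _ h, ← Nat.succ_mul] at h1
    exact h1

theorem F_inner_stab (a : ℕ) {b b' : ℕ} (hb : b ≤ b') (α : Fin m → ℕ) (hα : ∀ i, α i ≤ b) :
    F a b' α = F a b α := by
  refine le_antisymm ?_ (F_inner_mono a hb α)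
  induction b', hb using Nat.le_induction with
  | base => exact le_rfl
  | succ k hk ih => exact (F_inner_stab_succ a k α (fun i => (hα i).trans hk)).trans ih

theorem F_outer_stab {a a' : ℕ} (ha : a ≤ a') (b : ℕ) (α : Fin m → ℕ) (hα : ∑ i, α i ≤ a) :
    F a' b α = F a b α := by
  refine le_antisymm ?_ (F_outer_mono ha b α)
  induction a', ha using Nat.le_induction with
  | base => exact le_rfl
  | succ k hk ih => exact (F_outer_stab_succ k b α (hα.trans hk)).trans ih

/-- If all rows of the tail are at most `min b c`, the inner exponent does not matter. -/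
theorem F_inner_le (a b c : ℕ) (α : Fin m → ℕ) (hα : ∀ i, α i ≤ c) : F a b α ≤ F a c α := by
  rcases le_total b c with h | h
  · exact F_inner_mono a h α
  · exact (F_inner_stab a h α hα).le

/-- The strengthened inequality, from Foulkes' inequality for the pair `(a, c)`. -/
theorem F_le_of_foulkes {a b c d : ℕ} (hd : a ≤ d) (α : Fin m → ℕ) (hα : ∀ i, α i ≤ c)
    (hF : F a c α ≤ F c a α) : F a b α ≤ F c d α :=
  ((F_inner_le a b c α hα).trans hF).trans (F_inner_mono c hd α)

/-- The strengthened inequality when the second row is at most `d`. -/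
theorem F_le_of_row {a b c d : ℕ} (hc : a ≤ c) (α : Fin m → ℕ) (hα : ∀ i, α i ≤ d) :
    F a b α ≤ F c d α :=
  (F_inner_le a b d α hα).trans (F_outer_mono hc d α)

/-- The size of the rows below the second one. -/
def rest (α : Fin m → ℕ) : ℕ := ∑ i : Fin m, if (i : ℕ) = 0 then 0 else α i

lemma rest_succ {n : ℕ} (α : Fin (n + 1) → ℕ) : rest α = ∑ i : Fin n, α i.succ := by
  rw [rest, Fin.sum_univ_succ]
  have h0 : (((0 : Fin (n + 1)) : ℕ)) = 0 := rfl
  rw [if_pos h0, zero_add]
  apply Finset.sum_congr rfl
  intro i _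
  rw [if_neg]
  rw [Fin.val_succ]
  omega

/-- Foulkes' inequality for few boxes below the second row. -/
theorem F_foulkes_few {a c N : ℕ} (hac : a ≤ c) (hN : 1 ≤ N) (ha : a ≤ N + 1) (α : Fin m → ℕ)
    (h : rest α + N ≤ c) : F a c α ≤ F c a α := by
  rcases Nat.eq_zero_or_pos m with hm | hm
  · subst hm
    exact F_le_of_row hac α (fun i => i.elim0)
  · obtain ⟨n, rfl⟩ : ∃ n, m = n + 1 := ⟨m - 1, by omega⟩
    have h1 := H536.plethMult_le (n := n) (a := a) (b := c) hN ha (pad (a * c) α) (by
      have h2 : ∀ i : Fin n, pad (a * c) α i.succ.succ = α i.succ := fun i => rfl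
      rw [Finset.sum_congr rfl (fun i _ => h2 i), ← rest_succ]
      exact h)
    rw [F, F, mul_comm c a]
    exact h1

/-- Foulkes' inequality in the range of the canonical map. -/
theorem F_foulkes_canonical {a c : ℕ} (h : (a - 1) ^ 2 ≤ c) (α : Fin m → ℕ) :
    F a c α ≤ F c a α := by
  rw [F, F, mul_comm c a]
  refine finrank_le_of_inj (foulkesHowe a c (Fin (m + 1) → ℂ)) _ _
    (fun x hx => H536.foulkesHowe_hwSpace _ x hx) ?_
  intro x _ h0
  apply foulkesHowe_injective h
  rw [map_zero]
  exact h0

lemma le_sum (α : Fin m → ℕ) (i : Fin m) : α i ≤ ∑ j, α j :=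
  Finset.single_le_sum (fun _ _ => Nat.zero_le _) (Finset.mem_univ i)

/-- Foulkes' inequality for partitions with at most `c - a + 1` boxes below the second row. -/
theorem F_foulkes_few' {a c : ℕ} (hac : a ≤ c) (α : Fin m → ℕ) (hanti : Antitone α)
    (h : rest α + a ≤ c + 1) : F a c α ≤ F c a α := by
  rcases Nat.lt_or_ge a 2 with h2 | h2
  · by_cases hc : rest α + 1 ≤ c
    · exact F_foulkes_few hac le_rfl (by omega) α hc
    · rcases Nat.eq_zero_or_pos m with hm | hm
      · subst hm
        exact F_le_of_row hac α (fun i => i.elim0)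
      · obtain ⟨n, rfl⟩ : ∃ n, m = n + 1 := ⟨m - 1, by omega⟩
        have hsum : ∑ i, α i = α 0 + rest α := by
          rw [rest_succ, Fin.sum_univ_succ]
        have hle : ∀ i, α i ≤ α 0 := fun i => hanti (Fin.zero_le i)
        rcases Nat.eq_zero_or_pos (rest α) with hr | hr
        · -- then `c = 0` and `a = 0`
          have hc0 : c = 0 := by omega
          have ha0 : a = 0 := by omega
          subst hc0; subst ha0
          exact le_rfl
        · -- the multiplicity vanishes
          have hzero : F a c α = 0 := by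
            by_cases hbig : a * c < ∑ i, α i
            · exact F_eq_zero hbig
            · have ha1 : a = 1 := by
                rcases Nat.eq_zero_or_pos a with h0 | h0
                · subst h0
                  omega
                · omega
              subst ha1
              rw [one_mul] at hbig
              obtain ⟨k, hk⟩ := Nat.exists_eq_add_of_le (show α 0 ≤ c by omega)
              have h3 := plethMult_small (m := n + 1) 1 (α 0) (pad (1 * c) α) (by
                intro i hi
                obtain ⟨j, rfl⟩ := Fin.exists_succ_eq.2 hi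
                exact hle j) k (by
                  rw [pad_zero, one_mul, one_mul]
                  omega)
              rw [← hk] at h3
              exact h3
          rw [hzero]
          exact Nat.zero_le _
  · exact F_foulkes_few (N := a - 1) hac (by omega) (by omega) α (by omega)

/-- If the boxes below row one are at most `c`, then the second row is at most `a`, or few boxes
are below row two. -/
lemma row_or_rest {a c : ℕ} (α : Fin m → ℕ) (hanti : Antitone α) (h : ∑ i, α i ≤ c) :
    (∀ i, α i ≤ a) ∨ ((∀ i, α i ≤ c) ∧ rest α + a ≤ c + 1) := by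
  rcases Nat.eq_zero_or_pos m with hm | hm
  · subst hm
    left
    intro i
    exact i.elim0
  · obtain ⟨n, rfl⟩ : ∃ n, m = n + 1 := ⟨m - 1, by omega⟩
    have hsum : ∑ i, α i = α 0 + rest α := by
      rw [rest_succ, Fin.sum_univ_succ]
    by_cases h0 : α 0 ≤ a
    · left
      intro i
      exact (hanti (Fin.zero_le i)).trans h0
    · right
      refine ⟨fun i => (le_sum α i).trans h, by omega⟩

end Vale.Agent.P181.H777
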