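import Vale.Agent.P181.H54.Propagate

set_option autoImplicit false

open scoped TensorProduct

namespace Vale.Agent.P181.H777

open Vale.Agent.P181 Vale.Agent.P181.H280 Vale.Agent.P181.H54 MvPolynomial

variable {m : ℕ}

/-- Multiplication by the first basis vector in each factor intertwines up to a scalar. -/
lemma intertwine (a b : ℕ) (g : Matrix (Fin (m + 1)) (Fin (m + 1)) ℂ) (hg : IsBorel g)
    (z : Sym[ℂ]^a (Sym[ℂ]^b (Fin (m + 1) → ℂ))) :
    symMap a (symMap (b + 1) (Matrix.toLin' g)) (symMap a (symCons b (e0 m)) z) =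
      g 0 0 ^ a • symMap a (symCons b (e0 m)) (symMap a (symMap b (Matrix.toLin' g)) z) := by
  have h2 : symMap (b + 1) (Matrix.toLin' g) ∘ₗ symCons b (e0 m) =
      (g 0 0) • (symCons b (e0 m) ∘ₗ symMap b (Matrix.toLin' g)) := by
    apply LinearMap.ext
    intro z
    change symMap (b + 1) (Matrix.toLin' g) (symCons b (e0 m) z) =
      g 0 0 • symCons b (e0 m) (symMap b (Matrix.toLin' g) z)
    rw [symMap_symCons, borel_e0 hg, symCons_smul]
  rw [symMap_comp_apply, symMap_comp_apply, h2, symMap_smul_apply]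

/-- **Inner monotonicity**, by multiplying each of the `a` factors by the first basis vector. -/
theorem plethMult_inner_mono (a b : ℕ) (lam : Fin (m + 1) → ℕ) :
    plethMult a b (m + 1) lam ≤ plethMult a (b + 1) (m + 1) (addFirst lam a) := by
  have hμinj : LinearMap.ker (symCons b (e0 m)) = ⊥ := by
    rw [LinearMap.ker_eq_bot']
    intro x hx
    exact symCons_injective (e0_ne_zero m) x hx
  obtain ⟨s, hs⟩ := LinearMap.exists_leftInverse_of_injective (symCons b (e0 m)) hμinj
  refine finrank_le_of_inj (symMap a (symCons b (e0 m))) _ _ ?_ ?_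
  · intro x hx g hg
    have h1 : symMap a (symMap b (Matrix.toLin' g)) x = (∏ i, g i i ^ lam i) • x := hx g hg
    change symMap a (symMap (b + 1) (Matrix.toLin' g)) (symMap a (symCons b (e0 m)) x) = _
    rw [intertwine a b g hg x, h1, map_smul, smul_smul, prod_addFirst]
    rfl
  · intro x _ h0
    have h1 := congrArg (symMap a s) h0
    rw [symMap_comp_apply, hs, symMap_id_apply, map_zero] at h1
    exact h1

lemma eq_zero_of_smul_eq {a b n : ℕ} (x : Sym[ℂ]^a (Sym[ℂ]^b (Fin n → ℂ))) (c d : ℂ)
    (h : c • x = d • x) (hcd : c ≠ d) : x = 0 := by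
  have h5 : (c - d) • x = 0 := by
    have h1 := sub_smul c d x
    rw [h1, h, sub_self]
  exact (smul_eq_zero.1 h5).resolve_left (sub_ne_zero.2 hcd)

/-- The weight of a nonzero highest weight vector has the right size. -/
theorem plethMult_eq_zero_of_sum {n : ℕ} (a b : ℕ) (lam : Fin n → ℕ) (h : ∑ i, lam i ≠ a * b) :
    plethMult a b n lam = 0 := by
  have key : ∀ x : Sym[ℂ]^a (Sym[ℂ]^b (Fin n → ℂ)), x ∈ hwSpace lam (plethAct a b n) →
      x = 0 := by
    intro x hx
    have hg : IsBorel ((2 : ℂ) • (1 : Matrix (Fin n) (Fin n) ℂ)) := by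
      constructor
      · intro i j hij
        rw [Matrix.smul_apply, Matrix.one_apply_ne hij.ne', smul_zero]
      · intro i
        rw [Matrix.smul_apply, Matrix.one_apply_eq]
        norm_num
    have h2 : symMap a (symMap b (Matrix.toLin' ((2 : ℂ) • (1 : Matrix (Fin n) (Fin n) ℂ)))) x =
        (∏ i, ((2 : ℂ) • (1 : Matrix (Fin n) (Fin n) ℂ)) i i ^ lam i) • x := hx _ hg
    have h3 : symMap b (Matrix.toLin' ((2 : ℂ) • (1 : Matrix (Fin n) (Fin n) ℂ))) =
        ((2 : ℂ) ^ b) • LinearMap.id := by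
      apply LinearMap.ext
      intro z
      rw [map_smul, Matrix.toLin'_one, symMap_smul_apply, symMap_id_apply]
      rfl
    rw [h3, symMap_smul_apply, symMap_id_apply] at h2
    have h4 : (∏ i, ((2 : ℂ) • (1 : Matrix (Fin n) (Fin n) ℂ)) i i ^ lam i) =
        2 ^ (∑ i, lam i) := by
      rw [← Finset.prod_pow_eq_pow_sum]
      apply Finset.prod_congr rfl
      intro i _
      rw [Matrix.smul_apply, Matrix.one_apply_eq, smul_eq_mul, mul_one]
    rw [h4, ← pow_mul] at h2
    refine eq_zero_of_smul_eq x _ _ h2 ?_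
    intro h6
    have h7 : (2 : ℕ) ^ (b * a) = 2 ^ (∑ i, lam i) := by exact_mod_cast h6
    have h8 := Nat.pow_right_injective le_rfl h7
    exact h (by rw [← h8, mul_comm])
  have h1 : hwSpace lam (plethAct a b n) = ⊥ := by
    rw [eq_bot_iff]
    intro x hx
    exact key x hx
  rw [plethMult, h1]
  exact finrank_bot ℂ _

end Vale.Agent.P181.H777
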