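import Vale.Agent.P181.H777.Mono

set_option autoImplicit false

open scoped TensorProduct

namespace Vale.Agent.P181.H777

open Vale.Agent.P181 Vale.Agent.P181.H280 Vale.Agent.P181.H54 MvPolynomial

universe u

section Ideal

variable {M : Type u} [AddCommGroup M] [Module ℂ M]

/-- Projection along `w` given by a functional `f`. -/
noncomputable def prj (f : Module.Dual ℂ M) (w : M) : M →ₗ[ℂ] M :=
  LinearMap.id - f.smulRight w

lemma prj_apply (f : Module.Dual ℂ M) (w v : M) : prj f w v = v - f v • w := rfl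

lemma tprod_mem_range {k : ℕ} (w : M) (u : Fin (k + 1) → M) (j : Fin (k + 1)) (t : ℂ)
    (hu : u j = t • w) :
    SymmetricPower.tprod ℂ u ∈ LinearMap.range (symCons k w) := by
  rw [← SymmetricPower.tprod_equiv (Equiv.swap 0 j) u]
  have h2 : (fun i => u (Equiv.swap 0 j i)) =
      Fin.cons (t • w) (fun i : Fin k => u (Equiv.swap 0 j i.succ)) := by
    funext i
    refine Fin.cases ?_ (fun i => ?_) i
    · rw [Equiv.swap_apply_left, hu, Fin.cons_zero]
    · rw [Fin.cons_succ]
  refine ⟨t • SymmetricPower.tprod ℂ (fun i : Fin k => u (Equiv.swap 0 j i.succ)), ?_⟩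
  rw [map_smul, ← LinearMap.smul_apply]
  have h3 : (t • symCons k w) = symCons k (t • w) := by
    apply LinearMap.ext
    intro x
    rw [LinearMap.smul_apply, symCons_smul]
  rw [h3, symCons_tprod, ← h2]

/-- Modulo multiples of `w`, the projection along `w` is the identity. -/
lemma sub_symMap_mem {k : ℕ} (f : Module.Dual ℂ M) (w : M) (x : Sym[ℂ]^(k + 1) M) :
    x - symMap (k + 1) (prj f w) x ∈ LinearMap.range (symCons k w) := by
  have h : (LinearMap.range (symCons k w)).mkQ ∘ₗ
      (LinearMap.id - symMap (k + 1) (prj f w)) = 0 := by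
    apply sym_hom_ext
    intro v
    rw [LinearMap.comp_apply, LinearMap.zero_apply, Submodule.mkQ_apply,
      Submodule.Quotient.mk_eq_zero, LinearMap.sub_apply, LinearMap.id_apply, symMap_tprod]
    have h3 : v = (fun j => f (v j) • w) + fun j => prj f w (v j) := by
      funext j
      rw [Pi.add_apply, prj_apply]
      abel
    have h4 : SymmetricPower.tprod ℂ v = ∑ s : Finset (Fin (k + 1)),
        SymmetricPower.tprod ℂ (s.piecewise (fun j => f (v j) • w)
          (fun j => prj f w (v j))) := by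
      conv_lhs => rw [h3]
      rw [MultilinearMap.map_add_univ]
    rw [h4, ← Finset.add_sum_erase _ _ (Finset.mem_univ ∅), Finset.piecewise_empty,
      add_sub_cancel_left]
    apply Submodule.sum_mem
    intro s hs
    obtain ⟨j, hj⟩ := Finset.nonempty_iff_ne_empty.2 (Finset.ne_of_mem_erase hs)
    exact tprod_mem_range w _ j (f (v j)) (by simp [Finset.piecewise, hj])
  have h1 := LinearMap.congr_fun h x
  rw [LinearMap.comp_apply, LinearMap.zero_apply, Submodule.mkQ_apply,
    Submodule.Quotient.mk_eq_zero] at h1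
  exact h1

end Ideal

variable {m : ℕ}

/-- The power of the first basis vector. -/
noncomputable def w0 (m b : ℕ) : Sym[ℂ]^b (Fin (m + 1) → ℂ) :=
  SymmetricPower.tprod ℂ (fun _ => e0 m)

lemma phi_w0_zero (m b : ℕ) (c : Fin b → Fin (m + 1)) (hc : ∀ j, c j = 0) :
    phi c (w0 m b) ≠ 0 := by
  have h1 : phi c = symEval (fun _ : Fin b =>
      (LinearMap.proj 0 : (Fin (m + 1) → ℂ) →ₗ[ℂ] ℂ)) := by
    rw [phi]
    congr 1
    funext j
    rw [hc j]
  rw [h1, w0, symEval_const_tprod]
  have h2 : ∏ _i : Fin b, (LinearMap.proj 0 : (Fin (m + 1) → ℂ) →ₗ[ℂ] ℂ) (e0 m) = 1 := by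
    apply Finset.prod_eq_one
    intro i _
    simp [e0]
  rw [h2, mul_one]
  exact_mod_cast Fintype.card_ne_zero (α := Equiv.Perm (Fin b))

lemma w0_ne_zero (m b : ℕ) : w0 m b ≠ 0 := by
  intro h
  apply phi_w0_zero m b (fun _ => 0) (fun _ => rfl)
  rw [h, map_zero]

lemma phi_w0_eq_zero (m b : ℕ) (c : Fin b → Fin (m + 1)) (j : Fin b) (hc : c j ≠ 0) :
    phi c (w0 m b) = 0 := by
  rw [phi, w0, symEval_tprod]
  apply Finset.sum_eq_zero
  intro e _
  apply Finset.prod_eq_zero (Finset.mem_univ j)
  simp [e0, Pi.single_eq_of_ne hc]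

lemma symMap_w0 (b : ℕ) (g : Matrix (Fin (m + 1)) (Fin (m + 1)) ℂ) (hg : IsBorel g) :
    symMap b (Matrix.toLin' g) (w0 m b) = g 0 0 ^ b • w0 m b := by
  rw [w0, symMap_tprod, borel_e0 hg]
  have h1 := MultilinearMap.map_smul_univ (SymmetricPower.tprod ℂ (ι := Fin b)
    (M := Fin (m + 1) → ℂ)) (fun _ => g 0 0) (fun _ => e0 m)
  rw [h1, Finset.prod_const, Finset.card_univ, Fintype.card_fin]

/-- The normalized functional. -/
noncomputable def f0 (m b : ℕ) : Module.Dual ℂ (Sym[ℂ]^b (Fin (m + 1) → ℂ)) :=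
  (phi (fun _ : Fin b => (0 : Fin (m + 1))) (w0 m b))⁻¹ • phi (fun _ : Fin b => (0 : Fin (m + 1)))

lemma phi_comp_prj_zero (m b : ℕ) (c : Fin b → Fin (m + 1)) (hc : ∀ j, c j = 0) :
    phi c ∘ₗ prj (f0 m b) (w0 m b) = 0 := by
  have h0 : c = fun _ => 0 := by
    funext j
    exact hc j
  subst h0
  apply LinearMap.ext
  intro z
  rw [LinearMap.comp_apply, prj_apply, map_sub, map_smul, f0, LinearMap.smul_apply,
    LinearMap.zero_apply, smul_eq_mul, smul_eq_mul]
  have h1 := phi_w0_zero m b (fun _ => 0) (fun _ => rfl)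
  field_simp
  ring

lemma phi_comp_prj (m b : ℕ) (c : Fin b → Fin (m + 1)) (j : Fin b) (hc : c j ≠ 0) :
    phi c ∘ₗ prj (f0 m b) (w0 m b) = phi c := by
  apply LinearMap.ext
  intro z
  rw [LinearMap.comp_apply, prj_apply, map_sub, map_smul, phi_w0_eq_zero m b c j hc, smul_zero,
    sub_zero]

/-- A highest weight vector of small weight outside the first coordinate is divisible by the
power of the first basis vector. -/
lemma exists_symCons (a b : ℕ) (lam : Fin (m + 1) → ℕ)
    (hlam : ∑ i : Fin m, lam i.succ ≤ a)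
    (x : Sym[ℂ]^(a + 1) (Sym[ℂ]^b (Fin (m + 1) → ℂ)))
    (hx : x ∈ hwSpace lam (plethAct (a + 1) b (m + 1))) :
    ∃ y, symCons a (w0 m b) y = x := by
  classical
  have h0 : symMap (a + 1) (prj (f0 m b) (w0 m b)) x = 0 := by
    apply symEval_separates _ (span_phi (n := m + 1) b)
    intro φ hφ
    choose c hc using hφ
    rw [symEval_symMap]
    by_cases hall : ∀ i, ∃ j, c i j ≠ 0
    · -- the projection does nothing
      have h1 : (fun i => φ i ∘ₗ prj (f0 m b) (w0 m b)) = fun i => symEval (fun j =>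
          (LinearMap.proj (c i j) : (Fin (m + 1) → ℂ) →ₗ[ℂ] ℂ)) := by
        funext i
        obtain ⟨j, hj⟩ := hall i
        rw [← hc i, phi_comp_prj m b (c i) j hj]
        rfl
      rw [h1]
      obtain ⟨l, hl⟩ := exists_elOf x
      subst hl
      have h4 := symEval_elOf l (fun p => c p.1 p.2)
      rw [h4]
      by_contra hz
      have h5 : ∀ M : Fin (m + 1), (Finset.univ.filter
          (fun p : Fin (a + 1) × Fin b => c p.1 p.2 = M)).card = lam M := fun M =>
        coef_wt lam l hx _ M hz
      choose f hf using hall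
      have h6 : a + 1 ≤ (Finset.univ.filter
          (fun p : Fin (a + 1) × Fin b => c p.1 p.2 ≠ 0)).card := by
        have h7 : (Finset.univ.image (fun i : Fin (a + 1) => (i, f i))) ⊆
            Finset.univ.filter (fun p : Fin (a + 1) × Fin b => c p.1 p.2 ≠ 0) := by
          intro p hp
          rw [Finset.mem_image] at hp
          obtain ⟨i, -, rfl⟩ := hp
          rw [Finset.mem_filter]
          exact ⟨Finset.mem_univ _, hf i⟩
        have h8 := Finset.card_le_card h7
        rwa [Finset.card_image_of_injective _ (fun i i' h => congrArg Prod.fst h),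
          Finset.card_univ, Fintype.card_fin] at h8
      have h9 : (Finset.univ.filter
          (fun p : Fin (a + 1) × Fin b => c p.1 p.2 ≠ 0)).card = ∑ i : Fin m, lam i.succ := by
        have h10 : Finset.univ.filter (fun p : Fin (a + 1) × Fin b => c p.1 p.2 ≠ 0) =
            (Finset.univ : Finset (Fin m)).biUnion (fun i => Finset.univ.filter
              (fun p : Fin (a + 1) × Fin b => c p.1 p.2 = i.succ)) := by
          ext p
          simp only [Finset.mem_filter, Finset.mem_univ, true_and, Finset.mem_biUnion]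
          constructor
          · intro h
            obtain ⟨i, hi⟩ := Fin.exists_succ_eq.2 h
            exact ⟨i, hi.symm⟩
          · rintro ⟨i, hi⟩
            rw [hi]
            exact Fin.succ_ne_zero i
        rw [h10, Finset.card_biUnion]
        · exact Finset.sum_congr rfl (fun i _ => h5 i.succ)
        · intro i _ j _ hij
          rw [Function.onFun, Finset.disjoint_left]
          intro p hp hp'
          rw [Finset.mem_filter] at hp hp'
          exact hij (Fin.succ_injective _ (hp.2.symm.trans hp'.2))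
      omega
    · rw [not_forall] at hall
      obtain ⟨i0, hi0⟩ := hall
      rw [not_exists] at hi0
      have h1 : φ i0 ∘ₗ prj (f0 m b) (w0 m b) = 0 := by
        rw [← hc i0]
        exact phi_comp_prj_zero m b (c i0) (fun j => not_not.1 (hi0 j))
      rw [← symEvalM_apply]
      exact MultilinearMap.map_coord_zero _ i0 h1
  have h1 := sub_symMap_mem (f0 m b) (w0 m b) x
  rw [h0, sub_zero] at h1
  exact h1

lemma hw_of_symCons (a b : ℕ) (lam : Fin (m + 1) → ℕ)
    (y : Sym[ℂ]^a (Sym[ℂ]^b (Fin (m + 1) → ℂ)))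
    (hx : symCons a (w0 m b) y ∈ hwSpace (addFirst lam b) (plethAct (a + 1) b (m + 1))) :
    y ∈ hwSpace lam (plethAct a b (m + 1)) := by
  intro g hg
  have h2 : symMap (a + 1) (symMap b (Matrix.toLin' g)) (symCons a (w0 m b) y) =
      (∏ i, g i i ^ addFirst lam b i) • (symCons a (w0 m b) y) := hx g hg
  have h5 : g 0 0 ^ b • symCons a (w0 m b) (symMap a (symMap b (Matrix.toLin' g)) y) =
      g 0 0 ^ b • ((∏ i, g i i ^ lam i) • symCons a (w0 m b) y) := by
    rw [symMap_symCons, symMap_w0 b g hg, symCons_smul, prod_addFirst] at h2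
    rw [h2, smul_smul]
  have h3 := smul_right_injective _ (pow_ne_zero b (hg.2 0)) h5
  have h4 : symCons a (w0 m b) (symMap a (symMap b (Matrix.toLin' g)) y -
      (∏ i, g i i ^ lam i) • y) = 0 := by
    rw [map_sub, map_smul]
    exact sub_eq_zero.2 h3
  have h6 := sub_eq_zero.1 (symCons_injective (w0_ne_zero m b) _ h4)
  exact h6

/-- **Outer stability.** -/
theorem plethMult_outer_stab (a b : ℕ) (lam : Fin (m + 1) → ℕ)
    (hlam : ∑ i : Fin m, lam i.succ ≤ a) :
    plethMult (a + 1) b (m + 1) (addFirst lam b) ≤ plethMult a b (m + 1) lam := by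
  have hinj : LinearMap.ker (symCons a (w0 m b)) = ⊥ := by
    rw [LinearMap.ker_eq_bot']
    intro x hx
    exact symCons_injective (w0_ne_zero m b) x hx
  obtain ⟨s, hs⟩ := LinearMap.exists_leftInverse_of_injective (symCons a (w0 m b)) hinj
  have hdiv : ∀ x : Sym[ℂ]^(a + 1) (Sym[ℂ]^b (Fin (m + 1) → ℂ)),
      x ∈ hwSpace (addFirst lam b) (plethAct (a + 1) b (m + 1)) →
      ∃ y, symCons a (w0 m b) y = x := by
    intro x hx
    refine exists_symCons a b (addFirst lam b) ?_ x hx
    refine le_trans (le_of_eq ?_) hlam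
    apply Finset.sum_congr rfl
    intro i _
    simp only [addFirst, Fin.succ_ne_zero, if_false, add_zero]
  refine finrank_le_of_inj s _ _ ?_ ?_
  · intro x hx
    obtain ⟨y, rfl⟩ := hdiv x hx
    have h1 : s (symCons a (w0 m b) y) = y := LinearMap.congr_fun hs y
    rw [h1]
    exact hw_of_symCons a b lam y hx
  · intro x hx h0
    obtain ⟨y, rfl⟩ := hdiv x hx
    have h1 : s (symCons a (w0 m b) y) = y := LinearMap.congr_fun hs y
    rw [h1] at h0
    rw [h0, map_zero]

end Vale.Agent.P181.H777
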